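import Vale.Agent.P308.Defs
import Vale.Agent.P308.Main

namespace Vale.Agent.Results.P308.AFpras

open Vale.Agent.Lib.PTM Vale.Agent.P308

/-- There is a probabilistic Turing machine which is a fully polynomial randomised approximation
scheme for the number of perfect matchings of an arbitrary finite simple graph. -/
theorem result : ∃ (M : Machine) (d : ℕ), ∀ (n : ℕ) (G : SimpleGraph (Fin n)) (ε δ : ℚ),
    0 < ε → ε < 1 → 0 < δ → δ < 1 / 2 → ∀ T : ℕ,
      (n + 1 / (ε : ℝ) + Real.logb 2 (1 / (δ : ℝ)) + Real.logb 2 (ε.num * δ.num) + 2) ^ d ≤ T →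
      (∀ ρ : Fin T → Bool, (M.run (code G ε δ) (List.ofFn ρ)).l = none) ∧
      (1 - δ : ℝ) * 2 ^ T ≤ Nat.card {ρ : Fin T → Bool // ∃ a : ℕ,
        (M.run (code G ε δ) (List.ofFn ρ)).stk 0 = a.bits ∧
        (1 - ε : ℝ) * numPM G ≤ a ∧ (a : ℝ) ≤ (1 + ε) * numPM G} :=
  statement

end Vale.Agent.Results.P308.AFpras
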